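import Vale.Agent.P218UR.Loops
import Vale.Agent.P218TB.Format

/-! The ends of a self-shrinker in the form used by the main theorem. -/

namespace Vale.Agent.P218UR

theorem loopsStmt : P218TB.LoopsStmt := fun _ _ _ h1 h2 h3 h4 h5 h6 =>
  (loops h1 h4 h2 h3 h5 h6).imp fun _ h => h.imp fun _ k => ⟨k.1, k.2.1⟩

/-- **FORMAT** -/
theorem format : P218UA.FormatStmt := P218TB.format_of_loops loopsStmt

end Vale.Agent.P218UR
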