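import Vale.Agent.P218UC.AL
import Vale.Agent.P218GE.Foot
import Vale.Agent.P218GA.Defs

/-! A compact regular curve in the unit sphere is a finite union of disjoint closed curves. -/

open Set Filter Topology Metric Real
open scoped ContDiff RealInnerProductSpace

namespace Vale.Agent.P218UR

open Vale.Agent.P218GA (E3 Link)
open Vale.Agent.P218GE (nor inner_grad cdAt_grad)
open Vale.Agent.P218UC

lemma span3 {a b c : E3} (ha : ⟪a, a⟫ = 1) (hb : ⟪b, b⟫ = 1) (hc : ⟪c, c⟫ = 1)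
    (hab : ⟪a, b⟫ = 0) (hca : ⟪c, a⟫ = 0) (hcb : ⟪c, b⟫ = 0) (v : E3) :
    v = ⟪a, v⟫ • a + ⟪b, v⟫ • b + ⟪c, v⟫ • c := by
  obtain ⟨B, rfl, rfl, rfl⟩ := exists_onb ha hb hc hab hca hcb
  simpa [Fin.sum_univ_three] using (B.sum_repr' v).symm

lemma norm_nor {f : E3 → ℝ} {x : E3} (h : gradient f x ≠ 0) : ‖nor f x‖ = 1 := by
  rw [nor, norm_smul, norm_inv, norm_norm, inv_mul_cancel₀ (norm_ne_zero_iff.2 h)]

/-- a compact regular curve in the unit sphere, with a unit tangent field -/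
structure Reg (Γ Ω : Set E3) (f : E3 → ℝ) (X : E3 → E3) : Prop where
  cpt : IsCompact Γ
  sm : ContDiff ℝ ∞ f
  op : IsOpen Ω
  sub : Γ ⊆ Ω
  mem : ∀ x ∈ Ω, x ∈ Γ ↔ ‖x‖ = 1 ∧ f x = 0
  reg : ∀ x ∈ Γ, gradient f x ≠ 0 ∧ ⟪gradient f x, x⟫ = 0
  xs : ContDiff ℝ ∞ X
  bd : ∀ x, ‖X x‖ ≤ 1
  o1 : ∀ x, ⟪x, X x⟫ = 0
  o2 : ∀ x, ⟪gradient f x, X x⟫ = 0
  un : ∀ x ∈ Γ, ‖X x‖ = 1

variable {Γ Ω : Set E3} {f : E3 → ℝ} {X : E3 → E3} {γ β : ℝ → E3}

lemma cd_grad (hf : ContDiff ℝ ∞ f) : ContDiff ℝ ∞ (gradient f) :=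
  contDiff_iff_contDiffAt.2 fun _ => cdAt_grad hf.contDiffAt le_rfl

lemma exists_field (hΓ : IsClosed Γ) (hf : ContDiff ℝ ∞ f) (h1 : ∀ x ∈ Γ, ‖x‖ = 1)
    (hg : ∀ x ∈ Γ, gradient f x ≠ 0 ∧ ⟪gradient f x, x⟫ = 0) :
    ∃ X : E3 → E3, ContDiff ℝ ∞ X ∧ (∀ x, ‖X x‖ ≤ 1) ∧ (∀ x, ⟪x, X x⟫ = 0) ∧
      (∀ x, ⟪gradient f x, X x⟫ = 0) ∧ ∀ x ∈ Γ, ‖X x‖ = 1 := by
  obtain ⟨η, e1, e2, e3⟩ := hΓ.isOpen_compl.exists_contDiff_support_eq (n := ⊤)
  have e0 : ∀ x, 0 ≤ η x := fun x => (e3 (mem_range_self x)).1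
  have eΓ : ∀ x ∈ Γ, η x = 0 := fun x hx => by
    rw [← Function.notMem_support, e1]
    exact fun h => h hx
  have hY : ContDiff ℝ ∞ fun x => crs x (gradient f x) := by
    have := cd_grad hf
    refine contDiff_euclidean.2 fun i => ?_
    fin_cases i <;> simp [crs_apply] <;> fun_prop
  have hn : ∀ x ∈ Γ, 0 < ‖crs x (gradient f x)‖ := fun x hx => by
    have := inner_crs_crs x (gradient f x)
    rw [real_inner_comm (gradient f x) x, (hg x hx).2, real_inner_self_eq_norm_sq x, h1 x hx,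
      real_inner_self_eq_norm_sq, real_inner_self_eq_norm_sq] at this
    refine (norm_nonneg _).lt_of_ne' fun k => ?_
    rw [k] at this
    nlinarith [norm_pos_iff.2 (hg x hx).1]
  have hp : ∀ x, 0 < ‖crs x (gradient f x)‖ ^ 2 + η x := fun x => by
    by_cases hx : x ∈ Γ
    · exact add_pos_of_pos_of_nonneg (pow_pos (hn x hx) 2) (e0 x)
    · exact add_pos_of_nonneg_of_pos (sq_nonneg _)
        ((e0 x).lt_of_ne' (Function.mem_support.1 (e1 ▸ hx)))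
  refine ⟨fun x => (√(‖crs x (gradient f x)‖ ^ 2 + η x))⁻¹ • crs x (gradient f x),
    ((((hY.norm_sq ℝ).add e2).sqrt fun x => (hp x).ne').inv fun x => (sqrt_pos.2 (hp x)).ne').smul
      hY, fun x => ?_, fun x => ?_, fun x => ?_, fun x hx => ?_⟩
  · rw [norm_smul, norm_inv, norm_of_nonneg (sqrt_nonneg _), inv_mul_le_one₀ (sqrt_pos.2 (hp x))]
    exact le_sqrt_of_sq_le (le_add_of_nonneg_right (e0 x))
  · rw [inner_smul_right, inner_crs_left, mul_zero]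
  · rw [inner_smul_right, inner_crs_self, mul_zero]
  · beta_reduce
    rw [eΓ x hx, add_zero, sqrt_sq (norm_nonneg _), norm_smul, norm_inv, norm_norm,
      inv_mul_cancel₀ (hn x hx).ne']

/-- an integral curve of `X` -/
def Crv (X : E3 → E3) (γ : ℝ → E3) : Prop := ∀ t, HasDerivAt γ (X (γ t)) t

lemma Crv.cont (c : Crv X γ) : Continuous γ :=
  continuous_iff_continuousAt.2 fun t => (c t).continuousAt

lemma Crv.smooth (c : Crv X γ) (h : ContDiff ℝ ∞ X) : ContDiff ℝ ∞ γ := by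
  refine contDiff_infty.2 fun n => ?_
  induction n with
  | zero => exact contDiff_zero.2 c.cont
  | succ n k =>
    refine (contDiff_succ_iff_deriv (n := n)).2 ⟨fun t => (c t).differentiableAt, by simp, ?_⟩
    rw [show deriv γ = X ∘ γ from funext fun t => (c t).deriv]
    exact (contDiff_infty.1 h n).comp k

lemma Reg.shift (H : Reg Γ Ω f X) (c : Crv X γ) (d : Crv X β) {a b : ℝ} (h : γ a = β b) (t : ℝ) :
    γ (t + a) = β (t + b) :=
  congrFun (ode_unique (H.xs.of_le (by simp)) (f := fun t => γ (t + a)) (g := fun t => β (t + b))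
    (t₀ := 0) (fun t => (c (t + a)).comp_add_const t a) (fun t => (d (t + b)).comp_add_const t b)
    (by simpa using h)) t

lemma Reg.range_eq (H : Reg Γ Ω f X) (c : Crv X γ) (d : Crv X β) {a b : ℝ} (h : γ a = β b) :
    range γ = range β := by
  refine Subset.antisymm ?_ ?_
  · rintro _ ⟨t, rfl⟩
    exact ⟨t - a + b, by rw [← H.shift c d h, sub_add_cancel]⟩
  · rintro _ ⟨t, rfl⟩
    exact ⟨t - b + a, by rw [H.shift c d h, sub_add_cancel]⟩

lemma Reg.stay (H : Reg Γ Ω f X) (c : Crv X γ) (h0 : γ 0 ∈ Γ) (t : ℝ) : γ t ∈ Γ := by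
  obtain ⟨a0, b0⟩ := (H.mem _ (H.sub h0)).1 h0
  have a : ∀ t, ‖γ t‖ = 1 := fun t => by
    have := const_of_deriv (f := fun s => ‖γ s‖ ^ 2) (fun s => (c s).norm_sq.congr_deriv
      (by rw [H.o1, mul_zero])) t 0
    rwa [a0, sq_eq_sq₀ (norm_nonneg _) zero_le_one] at this
  have b : ∀ t, f (γ t) = 0 := fun t => b0 ▸ const_of_deriv (f := fun s => f (γ s)) (fun s =>
    ((H.sm.differentiable (by simp) _).hasFDerivAt.comp_hasDerivAt s (c s)).congr_deriv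
      (by rw [← inner_grad, H.o2])) t 0
  have e : γ ⁻¹' Γ = γ ⁻¹' Ω :=
    Subset.antisymm (preimage_mono H.sub) fun t ht => (H.mem _ ht).2 ⟨a t, b t⟩
  exact (IsClopen.eq_univ ⟨H.cpt.isClosed.preimage c.cont, e ▸ H.op.preimage c.cont⟩
    ⟨0, h0⟩).ge (mem_univ t)

/-- the orbits are open in `Γ` -/
lemma Reg.loc (H : Reg Γ Ω f X) (c : Crv X γ) (h0 : γ 0 ∈ Γ) {U : Set ℝ} (hU : U ∈ 𝓝 0) :
    ∀ᶠ y in 𝓝 (γ 0), y ∈ Γ → y ∈ γ '' U := by
  have m := fun y (hy : y ∈ Γ) => (H.mem _ (H.sub hy)).1 hy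
  obtain ⟨g0, g1⟩ := H.reg _ h0
  have hτ : ⟪X (γ 0), X (γ 0)⟫ = 1 := by rw [real_inner_self_eq_norm_sq, H.un _ h0, one_pow]
  have d : HasStrictFDerivAt (fun y => f y • ‖gradient f (γ 0)‖⁻¹ • nor f (γ 0)
      + ‖y‖ ^ 2 • (2⁻¹ : ℝ) • γ 0 + ⟪X (γ 0), y⟫ • X (γ 0))
      (ContinuousLinearEquiv.refl ℝ E3 : E3 →L[ℝ] E3) (γ 0) := by
    refine ((((H.sm.contDiffAt.hasStrictFDerivAt (by simp)).smul_const _).add
      ((hasStrictFDerivAt_norm_sq _).smul_const _)).add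
      ((innerSL ℝ (X (γ 0))).hasStrictFDerivAt.smul_const _)).congr_fderiv ?_
    ext1 v
    have := span3 (a := nor f (γ 0)) (b := γ 0) (c := X (γ 0))
      (by rw [real_inner_self_eq_norm_sq, norm_nor g0, one_pow])
      (by rw [real_inner_self_eq_norm_sq, (m _ h0).1, one_pow]) hτ
      (by rw [nor, inner_smul_left, g1, mul_zero]) (by
        rw [nor, inner_smul_right, real_inner_comm, H.o2, mul_zero])
      (by rw [real_inner_comm, H.o1]) v
    rw [nor, real_inner_smul_left, inner_grad, ← nor] at this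
    simp only [add_apply, ContinuousLinearMap.smulRight_apply,
      smul_apply, innerSL_apply_apply, ContinuousLinearEquiv.coe_refl,
      ContinuousLinearMap.id_apply]
    linear_combination (norm := module) -this
  have e : HasStrictDerivAt (fun t => ⟪X (γ 0), γ t⟫) 1 0 := by
    refine ((innerSL ℝ (X (γ 0))).hasStrictFDerivAt.comp_hasStrictDerivAt 0
      ((c.smooth H.xs).contDiffAt.hasStrictDerivAt (by simp))).congr_deriv ?_
    rw [(c 0).deriv]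
    exact hτ
  have l := d.eventually_left_inverse
  have k := image_mem_map (m := fun t => ⟪X (γ 0), γ t⟫) (inter_mem hU (c.cont.continuousAt l))
  rw [e.map_nhds_eq one_ne_zero] at k
  filter_upwards [l, (innerSL ℝ (X (γ 0))).continuous.continuousAt k] with y a b hy
  obtain ⟨t, ⟨t1, t2⟩, t3⟩ := b
  have ht := H.stay c h0 t
  refine ⟨t, t1, ?_⟩
  rw [← a, ← show _ = γ t from t2, (m _ hy).1, (m _ hy).2, (m _ ht).1, (m _ ht).2,
    show ⟪X (γ 0), γ t⟫ = ⟪X (γ 0), y⟫ from t3]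

lemma Reg.exists_crv (H : Reg Γ Ω f X) (x : E3) : ∃ γ, γ 0 = x ∧ Crv X γ :=
  exists_curve (H.xs.of_le (by simp)) H.bd x

lemma Reg.ret (H : Reg Γ Ω f X) (c : Crv X γ) (h0 : γ 0 ∈ Γ) : ∃ T > 0, γ T = γ 0 := by
  obtain ⟨z, hz, φ, h1, h2⟩ := H.cpt.tendsto_subseq (x := fun n : ℕ => γ n) fun n => H.stay c h0 n
  obtain ⟨β, rfl, d⟩ := H.exists_crv z
  obtain ⟨N, hN⟩ := eventually_atTop.1 (h2.eventually (H.loc d hz (Ioo_mem_nhds
    (show -2⁻¹ < (0 : ℝ) by norm_num) (show (0 : ℝ) < 2⁻¹ by norm_num))))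
  obtain ⟨s, s1, s2⟩ := hN N le_rfl (H.stay c h0 _)
  obtain ⟨t, t1, t2⟩ := hN (N + 1) N.le_succ (H.stay c h0 _)
  have : (φ N : ℝ) + 1 ≤ φ (N + 1) := by exact_mod_cast h1 N.lt_succ_self
  refine ⟨φ (N + 1) - t - φ N + s, by linarith [s1.1, t1.2], ?_⟩
  have a := H.shift d c s2 (-φ N)
  have b := H.shift d c t2 (s - φ N - t)
  rw [neg_add_cancel] at a
  rw [← a, show -(φ N : ℝ) + s = s - φ N - t + t by ring, b]
  congr 1
  ring

lemma Reg.period (H : Reg Γ Ω f X) (c : Crv X γ) (h0 : γ 0 ∈ Γ) :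
    ∃ T > 0, Function.Periodic γ T ∧ InjOn γ (Ico 0 T) := by
  obtain ⟨δ, δ0, hδ⟩ := eventually_nhdsWithin_iff.1 ((c 0).eventually_ne (c := γ 0)
    (norm_ne_zero_iff.1 (by rw [H.un _ h0]; exact one_ne_zero))) |> Metric.eventually_nhds_iff.1
  have k : ∀ T > 0, γ T = γ 0 → T ∈ Ici δ ∩ {T | γ T = γ 0} := fun T a b =>
    ⟨not_lt.1 fun l => hδ (by rwa [dist_zero_right, norm_of_nonneg a.le]) a.ne' b, b⟩
  obtain ⟨T, a, b⟩ := H.ret c h0
  obtain ⟨⟨l1, l2⟩, l3⟩ := (isClosed_Ici.inter (isClosed_eq c.cont continuous_const)).isLeast_csInf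
    ⟨T, k T a b⟩ ⟨δ, fun _ h => h.1⟩
  refine ⟨_, δ0.trans_le l1, fun t => by simpa using H.shift c c l2 t, ?_⟩
  have q : ∀ a ∈ Ico 0 (sInf (Ici δ ∩ {T | γ T = γ 0})), ∀ b ∈ Ico 0 (sInf (Ici δ ∩
      {T | γ T = γ 0})), γ a = γ b → ¬a < b := fun a ha b hb h l => by
    have := H.shift c c h (-a)
    rw [neg_add_cancel] at this
    linarith [l3 (k _ (by linarith) this.symm), ha.1, hb.2]
  exact fun a ha b hb h => le_antisymm (not_lt.1 (q b hb a ha h.symm)) (not_lt.1 (q a ha b hb h))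

lemma Reg.link (H : Reg Γ Ω f X) (c : Crv X γ) (h0 : γ 0 ∈ Γ) :
    ∃ L : Link, range L.γ = range γ ∧ ∀ θ, L.n θ = nor f (L.γ θ) := by
  obtain ⟨T, T0, p, j⟩ := H.period c h0
  have k : 0 < T / (2 * π) := by positivity
  have s : ContDiff ℝ ∞ fun θ => γ (T / (2 * π) * θ) := (c.smooth H.xs).comp (by fun_prop)
  have q : Function.Periodic (fun θ => γ (T / (2 * π) * θ)) (2 * π) := fun θ => by
    simp only [mul_add]
    rw [div_mul_cancel₀ _ (by positivity), p]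
  have d : ∀ θ, deriv (fun θ => γ (T / (2 * π) * θ)) θ
      = (T / (2 * π)) • X (γ (T / (2 * π) * θ)) := fun θ =>
    ((c _).scomp θ (hasDerivAt_const_mul _)).deriv
  have g := fun t => H.reg _ (H.stay c h0 t)
  refine ⟨⟨fun θ => γ (T / (2 * π) * θ), fun θ => nor f (γ (T / (2 * π) * θ)), T / (2 * π), k, s,
    contDiff_iff_contDiffAt.2 fun θ => ?_, q, q.comp (nor f),
    fun θ => ((H.mem _ (H.sub (H.stay c h0 _))).1 (H.stay c h0 _)).1, fun θ => norm_nor (g _).1,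
    fun θ => ?_, fun θ => ?_, fun θ => ?_, fun a ha b hb h => ?_⟩,
    (mul_left_surjective₀ k.ne').range_comp γ, fun _ => rfl⟩
  · have := ((cd_grad H.sm).comp s).contDiffAt (x := θ)
    exact ((this.norm ℝ (g _).1).inv (norm_ne_zero_iff.2 (g _).1)).smul this
  · rw [d, norm_smul, H.un _ (H.stay c h0 _), mul_one, norm_of_nonneg k.le]
  · rw [nor, inner_smul_left, (g _).2, mul_zero]
  · rw [d, nor, inner_smul_left, inner_smul_right, H.o2, mul_zero, mul_zero]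
  · have m : ∀ a ∈ Ico 0 (2 * π), T / (2 * π) * a ∈ Ico 0 T := fun a ha =>
      ⟨mul_nonneg k.le ha.1, (mul_lt_mul_of_pos_left ha.2 k).trans_eq
        (div_mul_cancel₀ _ (by positivity))⟩
    exact mul_left_cancel₀ k.ne' (j (m a ha) (m b hb) h)

/-- **LOOPS** -/
theorem loops (hΓ : IsCompact Γ) (hf : ContDiff ℝ ∞ f) (hΩ : IsOpen Ω) (hs : Γ ⊆ Ω)
    (hm : ∀ x ∈ Ω, x ∈ Γ ↔ ‖x‖ = 1 ∧ f x = 0)
    (hg : ∀ x ∈ Γ, gradient f x ≠ 0 ∧ ⟪gradient f x, x⟫ = 0) :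
    ∃ (l : ℕ) (L : Fin l → Link), (∀ j j' θ θ', (L j).γ θ = (L j').γ θ' → j = j') ∧
      Γ = ⋃ j, range (L j).γ ∧ ∀ j θ, (L j).n θ = nor f ((L j).γ θ) := by
  obtain ⟨X, x1, x2, x3, x4, x5⟩ := exists_field hΓ.isClosed hf
    (fun x hx => ((hm x (hs hx)).1 hx).1) hg
  have H : Reg Γ Ω f X := ⟨hΓ, hf, hΩ, hs, hm, hg, x1, x2, x3, x4, x5⟩
  choose c c0 c1 using H.exists_crv
  obtain ⟨t, t1, t2⟩ := hΓ.elim_nhds_subcover (fun x => {y | y ∈ Γ → y ∈ c x '' univ})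
    fun x hx => by
      have := H.loc (c1 x) ((c0 x).symm ▸ hx) univ_mem
      rwa [c0] at this
  have : Finite ((fun x => range (c x)) '' t) := (t.finite_toSet.image _).to_subtype
  have e := Finite.equivFin ((fun x => range (c x)) '' t)
  choose x hx ex using fun j => (e.symm j).2
  choose L L1 L2 using fun j => H.link (c1 (x j)) ((c0 _).symm ▸ t1 _ (hx j))
  refine ⟨_, L, fun j j' θ θ' h => e.symm.injective (Subtype.ext ?_),
    Subset.antisymm (fun y hy => ?_) (iUnion_subset fun j => ?_), L2⟩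
  · obtain ⟨a, ha⟩ := (L1 j).le (mem_range_self θ)
    obtain ⟨b, hb⟩ := (L1 j').le (mem_range_self θ')
    rw [← ex, ← ex]
    exact H.range_eq (c1 _) (c1 _) (ha.trans (h.trans hb.symm))
  · obtain ⟨z, hz, k⟩ := mem_iUnion₂.1 (t2 hy)
    refine mem_iUnion.2 ⟨e ⟨_, z, hz, rfl⟩, ?_⟩
    rw [L1, show range (c _) = _ from ex _, e.symm_apply_apply]
    exact image_univ.le (k hy)
  · rw [L1]
    rintro _ ⟨s, rfl⟩
    exact H.stay (c1 _) ((c0 _).symm ▸ t1 _ (hx j)) s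

end Vale.Agent.P218UR
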